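import Vale.Agent.P354AY.Der

/-!
P354 (helper51): the barriers beat the sources; existence of the weights.
-/

open scoped ContDiff
open Set

namespace Vale.Agent.P354AY

open Vale.Agent.P354C Vale.Agent.P354C.Ix Vale.Agent.P354A

/-- The parameters. -/
structure Par (N : Nu) (n : ℕ) (Λ θ ε CX : ℝ) : Prop where
  Λe : N.μ * Λ = 400 * N.G
  ε0 : 0 < ε
  εθ : ε ≤ θ
  CX0 : 0 < CX
  θ1 : 1600 * 2 ^ n * (Λ * N.G) ^ 2 * θ ≤ N.μ
  θ2 : 800 * Λ * CX * θ ≤ N.μ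

theorem amp_le {Λ : ℝ} (h : 1 ≤ Λ) (i : Ix) : 1 ≤ amp Λ i ∧ amp Λ i ≤ Λ := by
  unfold amp; split_ifs <;> constructor <;> linarith

/-- The size of the background. -/
def Nu.g (N : Nu) (θ : ℝ) (j : Ix) : ℝ := θ * N.ω ^ (if isQ j then 16 else 8)

variable {N : Nu} {n : ℕ} {Λ θ ε CX : ℝ}

theorem Par.Λ1 (h : N.OK) (p : Par N n Λ θ ε CX) : 1 ≤ Λ := by
  by_contra c
  nlinarith [p.Λe, h.μ0, h.μ1, h.G2, mul_le_mul_of_nonneg_left (not_le.1 c).le h.μ0.le]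

theorem Par.θ0 (p : Par N n Λ θ ε CX) : 0 < θ := p.ε0.trans_le p.εθ

theorem Par.g_le (h : N.OK) (p : Par N n Λ θ ε CX) (j : Ix) :
    0 ≤ N.g θ j ∧ N.g θ j ≤ θ * N.ω ^ 8 := by
  have := p.θ0
  have := h.ω0
  refine ⟨by unfold Nu.g; positivity, mul_le_mul_of_nonneg_left (h.pw ?_) p.θ0.le⟩
  split_ifs <;> norm_num

theorem Par.lo_le (h : N.OK) (p : Par N n Λ θ ε CX) (j : Ix) {y y' : ℝ} (hy : 0 ≤ y) (k : y ≤ y') :
    0 ≤ ε * amp Λ j * y ∧ ε * amp Λ j * y ≤ ε * Λ * y' := by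
  have h1 := amp_le (p.Λ1 h) j
  have := p.ε0
  have h2 : 0 ≤ amp Λ j := by linarith [h1.1]
  exact ⟨by positivity, mul_le_mul (mul_le_mul_of_nonneg_left h1.2 p.ε0.le) k hy
    (mul_nonneg p.ε0.le (by linarith [h1.1, h1.2]))⟩

/-- Four terms of size θ B^2 ε W. -/
theorem Par.four (h : N.OK) (p : Par N n Λ θ ε CX) (i : Ix) {W x y z : ℝ} (hW : 0 ≤ W)
    (hx : x ≤ θ * (Λ * N.G) ^ 2 * ε * W) (hy : y ≤ θ * (Λ * N.G) ^ 2 * ε * W)
    (hz : z ≤ θ * (Λ * N.G) ^ 2 * ε * W) :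
    x + y + z + z ≤ ε * amp Λ i * (N.μ * W) / (400 * 2 ^ n) := by
  have h1 := mul_le_mul_of_nonneg_right p.θ1 (mul_nonneg p.ε0.le hW)
  have h2 := mul_le_mul_of_nonneg_right (amp_le (p.Λ1 h) i).1
    (mul_nonneg h.μ0.le (mul_nonneg p.ε0.le hW))
  have h3 : x + y + z + z ≤ 4 * (θ * (Λ * N.G) ^ 2 * ε * W) := by linarith
  have h4 := mul_le_mul_of_nonneg_right h3 (show (0 : ℝ) ≤ 400 * 2 ^ n by positivity)
  rw [le_div_iff₀ (by positivity)]
  linarith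

theorem Par.B1 (h : N.OK) (p : Par N n Λ θ ε CX) : 1 ≤ Λ * N.G :=
  one_le_mul_of_one_le_of_one_le (p.Λ1 h) (by linarith [h.G2])

theorem Par.sq (h : N.OK) (p : Par N n Λ θ ε CX) {W x : ℝ} (hW : 0 ≤ W)
    (hx : x ≤ θ * (Λ * N.G) * ε * W) : x ≤ θ * (Λ * N.G) ^ 2 * ε * W := by
  have := p.θ0
  have := p.ε0
  refine hx.trans ?_
  gcongr
  exact le_self_pow₀ (p.B1 h) (by norm_num)

theorem Par.eps (p : Par N n Λ θ ε CX) {W x : ℝ} (hW : 0 ≤ W)
    (hx : x ≤ ε * (Λ * N.G) ^ 2 * ε * W) : x ≤ θ * (Λ * N.G) ^ 2 * ε * W := by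
  have := p.ε0
  refine hx.trans ?_
  gcongr
  exact p.εθ

theorem finY (h : N.OK) (p : Par N n Λ θ ε CX) (i : Ix) :
    RB n i (N.g θ) (fun j => ε * amp Λ j * N.yb (cls j)) (fun j => ε * amp Λ j * N.yb (cls j)) +
      AB i (N.g θ) (fun j => ε * amp Λ j * N.yb (cls j)) (fun _ => CX * ε * (N.ω⁻¹ * N.ax)) <
      ε * amp Λ i * N.sy (cls i) := by
  have hμ := h.μ0
  have hε := p.ε0
  have hω := h.ω0
  have hθ := p.θ0
  have hΛ := p.Λ1 h
  have hG := h.G0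
  have hS := h.sy_pos (cls i)
  have ha := amp_le hΛ i
  obtain ⟨W, hW⟩ : ∃ W, N.sy (cls i) = N.μ * W := ⟨N.sy (cls i) / N.μ, by field_simp⟩
  have hW0 : 0 < W := (mul_pos_iff_of_pos_left hμ).1 (hW ▸ hS)
  have gl : ∀ j l, N.g θ j * (ε * amp Λ l * N.yb (cls l)) ≤ θ * (Λ * N.G) ^ 2 * ε * W := by
    intro j l
    have k1 := p.lo_le h l (h.yb_pos (cls l)).le le_rfl
    have k2 : N.ω ^ 4 * N.ax ≤ W := le_of_mul_le_mul_left (hW ▸ (h.sy_low (cls i)).1) hμ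
    have k3 : N.ω ^ 8 * N.yb (cls l) ≤ N.G * W := by
      have k4 := mul_le_mul_of_nonneg_left (h.yb_x (cls l)) (pow_pos hω 7).le
      have k5 := mul_le_mul_of_nonneg_left ((h.pwx (m := 4) (n := 7) (by norm_num)).trans k2) hG.le
      linarith
    refine p.sq h hW0.le ((mul_le_mul (p.g_le h j).2 k1.2 k1.1 (by positivity)).trans ?_)
    have k6 := mul_le_mul_of_nonneg_left k3 (show 0 ≤ θ * ε * Λ by positivity)
    linarith
  have ll : ∀ j l, prY (cls i) (cls j) (cls l) → ε * amp Λ j * N.yb (cls j) *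
      (ε * amp Λ l * N.yb (cls l)) ≤ θ * (Λ * N.G) ^ 2 * ε * W := by
    intro j l k
    have k1 := p.lo_le h j (h.yb_pos (cls j)).le le_rfl
    have k2 := p.lo_le h l (h.yb_pos (cls l)).le le_rfl
    have k3 : N.yb (cls j) * N.yb (cls l) ≤ N.G ^ 2 * W :=
      le_of_mul_le_mul_left (by have := h.pr_le k; rw [hW] at this; linarith) hμ
    refine p.eps hW0.le ((mul_le_mul k1.2 k2.2 k2.1 (k1.1.trans k1.2)).trans ?_)
    have k6 := mul_le_mul_of_nonneg_left k3 (show 0 ≤ (ε * Λ) ^ 2 by positivity)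
    linarith
  refine beat_of n i _ _ _ (by have := ha.1; positivity) (fun t ht => ?_) (fun t ht => ?_)
    fun t ht => ?_
  · obtain ⟨r1, r2, r3⟩ := rule_linY i t ht
    have k := h.lin_le r3
    simp only [amp, r1, r2, if_true, Bool.false_eq_true, if_false]
    rw [hW] at k ⊢
    have k1 : N.yb (cls t.2) ≤ N.G * W := le_of_mul_le_mul_left (by linarith) hμ
    have k2 := mul_le_mul_of_nonneg_left k1 hε.le
    have k3 : ε * Λ * (N.μ * W) = ε * W * (N.μ * Λ) := by ring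
    rw [k3, p.Λe]
    linarith
  · rw [hW]
    refine (rule_prY i t ht).imp id fun r => p.four h i hW0.le (gl _ _)
      ((mul_comm _ _).trans_le (gl _ _)) ?_
    exact r.elim (ll _ _) fun r => (mul_comm _ _).trans_le (ll _ _ r)
  · obtain ⟨r1, r2⟩ := rule_faY i t ht
    have k1 := p.lo_le h t.2.1 (h.yb_pos (cls t.2.1)).le (y' := N.ω ^ 3) (by
      rw [r2]
      exact (mul_le_of_le_one_right (pow_pos hω 4).le h.x1).trans (h.pw (by norm_num)))
    have k2 : N.g θ t.2.1 + ε * amp Λ t.2.1 * N.yb (cls t.2.1) ≤ 2 * (θ * Λ * N.ω ^ 3) := by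
      have k3 : θ * N.ω ^ 8 ≤ θ * Λ * N.ω ^ 3 := mul_le_mul (le_mul_of_one_le_right hθ.le hΛ)
        (h.pw (by norm_num)) (by positivity) (by positivity)
      have k4 : ε * Λ * N.ω ^ 3 ≤ θ * Λ * N.ω ^ 3 := by gcongr; exact p.εθ
      linarith [(p.g_le h t.2.1).2, k1.2]
    have hx := h.x0
    have hC := p.CX0
    refine (mul_le_mul_of_nonneg_right k2 (by positivity)).trans ?_
    have k5 : 2 * (θ * Λ * N.ω ^ 3) * (CX * ε * (N.ω⁻¹ * N.ax)) =
        800 * Λ * CX * θ * (ε * (N.ω ^ 2 * N.ax)) / 400 := by field_simp; ring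
    have k6 := mul_le_mul_of_nonneg_right p.θ2 (show 0 ≤ ε * (N.ω ^ 2 * N.ax) by positivity)
    have k7 := mul_le_mul_of_nonneg_left ((h.sy_low (cls i)).2 r1) hε.le
    have k8 := mul_le_mul_of_nonneg_right ha.1 (mul_pos hε hS).le
    rw [k5]
    linarith

theorem finZ (h : N.OK) (p : Par N n Λ θ ε CX) {i : Ix} (hi : odd i) :
    RB n i (N.g θ) (fun j => ε * amp Λ j * N.zb j) (fun j => ε * amp Λ j * N.zb j) +
      AB i (N.g θ) (fun j => ε * amp Λ j * N.zb j) (fun j => ε * amp Λ j * N.yb (cls j)) <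
      ε * amp Λ i * N.sz i := by
  have hμ := h.μ0
  have hε := p.ε0
  have hω := h.ω0
  have hθ := p.θ0
  have hΛ := p.Λ1 h
  have hG := h.G0
  have hS := h.sz_pos i
  have ha := amp_le hΛ i
  have hat := h.at_pos (tv i)
  obtain ⟨W, hW⟩ : ∃ W, W = N.ω ^ 8 * (N.at (tv i) + N.ω) := ⟨_, rfl⟩
  have hW0 : 0 < W := by rw [hW]; positivity
  have w1 : N.ω ^ 8 * N.at (tv i) ≤ W := by rw [hW]; gcongr; linarith
  have w2 : N.ω ^ 16 ≤ W := by
    refine (h.pw (m := 9) (by norm_num)).trans ?_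
    rw [hW, pow_succ]
    gcongr
    linarith
  have hz : N.sz i = N.μ * W := by rw [hW]; rfl
  have gs : ∀ j l, side (tv i) (cls l) →
      N.g θ j * (ε * amp Λ l * N.yb (cls l)) ≤ θ * (Λ * N.G) ^ 2 * ε * W := by
    intro j l k
    have k1 := p.lo_le h l (h.yb_pos (cls l)).le (h.yb_side k)
    refine p.sq h hW0.le ((mul_le_mul (p.g_le h j).2 k1.2 k1.1 (by positivity)).trans ?_)
    have k6 := mul_le_mul_of_nonneg_left w1 (show 0 ≤ θ * ε * Λ * N.G by positivity)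
    linarith
  have ls : ∀ j l, odd j → side (tv i) (cls l) →
      ε * amp Λ j * N.zb j * (ε * amp Λ l * N.yb (cls l)) ≤ θ * (Λ * N.G) ^ 2 * ε * W := by
    intro j l k' k
    have k1 := p.lo_le h l (h.yb_pos (cls l)).le (h.yb_side k)
    have k2 := p.lo_le h j (h.zb_pos j).le (h.zb_odd k')
    refine p.eps hW0.le ((mul_le_mul k2.2 k1.2 k1.1 (by positivity)).trans ?_)
    have k6 := mul_le_mul_of_nonneg_left w1 (show 0 ≤ (ε * Λ * N.G) ^ 2 by positivity)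
    linarith
  have pr : ∀ j l, prZ i j l →
      N.g θ j * (ε * amp Λ l * N.zb l) ≤ θ * (Λ * N.G) ^ 2 * ε * W ∧
      ε * amp Λ j * N.zb j * N.g θ l ≤ θ * (Λ * N.G) ^ 2 * ε * W ∧
      ε * amp Λ j * N.zb j * (ε * amp Λ l * N.zb l) ≤ θ * (Λ * N.G) ^ 2 * ε * W := by
    intro j l k
    simp only [prZ, decide_eq_true_eq] at k
    obtain ⟨r1, r2, r3⟩ := k
    have k2 := p.lo_le h j (h.zb_pos j).le (h.zb_odd r1)
    have k3 := p.lo_le h l (h.yb_pos (cls l)).le (h.yb_G _)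
    have k4 := mul_le_mul_of_nonneg_left w2 (show 0 ≤ θ * ε * Λ * N.G by positivity)
    rw [zb_even N r2]
    refine ⟨?_, p.sq h hW0.le ((mul_le_mul k2.2 (p.g_le h l).2 (p.g_le h l).1
      (by positivity)).trans (by linarith)), ?_⟩
    · rcases r3 with r3 | r3
      · exact gs j l r3
      · refine p.sq h hW0.le ((mul_le_mul_of_nonneg_left k3.2 (p.g_le h j).1).trans ?_)
        simp only [Nu.g, r3.1, if_true]
        linarith
    · rcases r3 with r3 | r3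
      · exact ls j l r1 r3
      · have k5 := p.lo_le h j (h.zb_pos j).le (y' := N.G * W) (by
          rw [zb_Q N r3.1, r3.2, ← hW]
          exact h.up hW0.le le_rfl)
        exact p.eps hW0.le ((mul_le_mul k5.2 k3.2 k3.1 (by positivity)).trans (le_of_eq (by ring)))
  refine beat_of n i _ _ _ (by have := ha.1; positivity) (fun t ht => ?_) (fun t ht => ?_)
    fun t ht => ?_
  · obtain ⟨r1, r2, r3, r4⟩ := rule_linZ i hi t ht
    simp only [amp, r1, r2, if_true, Bool.false_eq_true, if_false]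
    rw [zb_Q N r3, r4, ← hW, hz, show ε * Λ * (N.μ * W) = ε * W * (N.μ * Λ) by ring, p.Λe]
    nlinarith [mul_le_mul_of_nonneg_left h.G2 (mul_pos hε hW0).le, mul_pos hε hW0]
  · rw [hz]
    refine (rule_prZ i hi t ht).imp id fun r => r.elim (fun r => ?_) fun r => ?_
    · exact p.four h i hW0.le (pr _ _ r).1 (pr _ _ r).2.1 (pr _ _ r).2.2
    · exact p.four h i hW0.le ((mul_comm _ _).trans_le (pr _ _ r).2.1)
        ((mul_comm _ _).trans_le (pr _ _ r).1) ((mul_comm _ _).trans_le (pr _ _ r).2.2)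
  · obtain ⟨r1, r2⟩ := rule_faZ i hi t ht
    have k0 : 0 ≤ θ * (Λ * N.G) ^ 2 * ε * W := by positivity
    have k1 := p.four h i hW0.le (gs t.2.1 _ r2) (ls t.2.1 _ r1 r2) k0
    have k2 : ε * amp Λ i * (N.μ * W) / (400 * 2 ^ n) ≤ ε * amp Λ i * (N.μ * W) / 400 :=
      div_le_div_of_nonneg_left (by have := ha.1; positivity) (by norm_num)
        (le_mul_of_one_le_right (by norm_num) (one_le_pow₀ (by norm_num)))
    rw [hz, add_mul]
    linarith

theorem Par.low (p : Par N (n + 1) Λ θ ε CX) : Par N n Λ θ ε CX :=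
  ⟨p.Λe, p.ε0, p.εθ, p.CX0, le_trans (by
    have := p.θ0
    gcongr <;> norm_num) p.θ1, p.θ2⟩

theorem gB_eq (k : ℝ) (a A : ℝ → ℝ) (A0 t x θ : ℝ) :
    (fun j => gB k θ j t) = Nu.g (nu k a A A0 t x) θ := by
  funext j
  unfold gB Nu.g
  split_ifs
  · rw [ex16]; rfl
  · rw [ex8]; rfl

/-- **YZIN.** -/
theorem yzin : YZIN := by
  intro k a A A0 CX n hk h hC
  have h0 := nu_ok (x := 0) hk h le_rfl
  have hμ : 0 < min 1 (k / 16) := h0.μ0
  have hG : 0 < 2 + A0 := h0.G0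
  obtain ⟨Λ, hΛ⟩ : ∃ Λ, Λ = 400 * (2 + A0) / min 1 (k / 16) := ⟨_, rfl⟩
  have hΛ0 : 0 < Λ := by rw [hΛ]; positivity
  obtain ⟨θ, θ0, θ1, θ2⟩ : ∃ θ, 0 < θ ∧ 1600 * 2 ^ (n + 1) * (Λ * (2 + A0)) ^ 2 * θ ≤
      min 1 (k / 16) ∧ 800 * Λ * CX * θ ≤ min 1 (k / 16) :=
    ⟨min (min 1 (k / 16) / (1600 * 2 ^ (n + 1) * (Λ * (2 + A0)) ^ 2))
      (min 1 (k / 16) / (800 * Λ * CX)), by positivity,
      (le_div_iff₀' (by positivity)).1 (min_le_left _ _),
      (le_div_iff₀' (by positivity)).1 (min_le_right _ _)⟩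
  have par : ∀ t x ε, 0 < ε → ε ≤ θ → Par (nu k a A A0 t x) (n + 1) Λ θ ε CX := fun t x ε h1 h2 =>
    ⟨by simp only [nu, hΛ]; field_simp, h1, h2, hC, θ1, θ2⟩
  refine ⟨Λ, θ, θ, (par 0 0 θ θ0 le_rfl).Λ1 h0, θ0, θ0, fun ε h1 h2 t x ht i => ⟨?_, fun hi => ?_⟩⟩
  · obtain ⟨B', d, b⟩ := derY (t := t) (x := x) hk h i
    have ok := nu_ok (x := x) hk h ht
    have ha := (amp_le ((par t x ε h1 h2).Λ1 ok) i).1
    refine ⟨_, d.const_mul (ε * amp Λ i), ?_⟩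
    simp only [barY_eq (A0 := A0), gB_eq k a A A0 t x, ex_neg]
    refine (finY ok (par t x ε h1 h2) i).trans_le ?_
    linarith [mul_le_mul_of_nonneg_left b (show 0 ≤ ε * amp Λ i by positivity)]
  · obtain ⟨B', d, b⟩ := derZ (t := t) (x := x) hk h hi
    have ok := nu_ok (x := x) hk h ht
    have ha := (amp_le ((par t x ε h1 h2).Λ1 ok) i).1
    refine ⟨_, d.const_mul (ε * amp Λ i), ?_⟩
    simp only [barY_eq (A0 := A0), barZ_eq (A0 := A0), gB_eq k a A A0 t x]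
    refine (finZ ok (par t x ε h1 h2).low hi).trans_le ?_
    linarith [mul_le_mul_of_nonneg_left b (show 0 ≤ ε * amp Λ i by positivity)]

end Vale.Agent.P354AY
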