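import Vale.Agent.P354AY.Num

/-!
P354 (helper51): the derivatives of the barriers.
-/

open Set

namespace Vale.Agent.P354AY

open Vale.Agent.P354C Vale.Agent.P354C.Ix Vale.Agent.P354A

variable {k A0 t x : ℝ} {a A : ℝ → ℝ}

theorem ex_nat (k t : ℝ) (m : ℕ) : ex k m t = ex k 1 t ^ m := by
  unfold ex
  rw [← Real.exp_nat_mul]
  congr 1
  ring

theorem ex2 : ex k 2 t = ex k 1 t ^ 2 := by simpa using ex_nat k t 2
theorem ex4 : ex k 4 t = ex k 1 t ^ 4 := by simpa using ex_nat k t 4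
theorem ex8 : ex k 8 t = ex k 1 t ^ 8 := by simpa using ex_nat k t 8
theorem ex16 : ex k 16 t = ex k 1 t ^ 16 := by simpa using ex_nat k t 16

theorem ex_neg : ex k (-1) t = (ex k 1 t)⁻¹ := by
  unfold ex
  rw [← Real.exp_neg]
  congr 1
  ring

theorem ex_pos (k m t : ℝ) : 0 < ex k m t := Real.exp_pos _

theorem ex_le (hk : 0 < k) (ht : 0 ≤ t) : ex k 1 t ≤ 1 :=
  Real.exp_le_one_iff.2 (by nlinarith)

theorem wt_cmp (hk : 0 < k) (h : Wt k a A A0) (ht : 0 ≤ t) (y : ℝ) :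
    ex k 1 t * a y ≤ a (y + t) ∧ ex k 1 t * a (y + t) ≤ a y := by
  choose a' h1 h2 using h.der
  have d : ∀ c y, HasDerivAt (fun y => a y * Real.exp (c * y))
      ((a' y + c * a y) * Real.exp (c * y)) y := fun c y =>
    ((h1 y).mul ((hasDerivAt_id y).const_mul c).exp).congr_deriv (by simp only [id]; ring)
  have m1 : Monotone fun y => a y * Real.exp (k / 16 * y) :=
    monotone_of_deriv_nonneg (fun y => (d _ y).differentiableAt) fun y => by
      rw [(d _ y).deriv]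
      exact mul_nonneg (by nlinarith [(abs_le.1 (h2 y)).1, h.pos y]) (Real.exp_pos _).le
  have m2 : Antitone fun y => a y * Real.exp (-(k / 16) * y) :=
    antitone_of_deriv_nonpos (fun y => (d _ y).differentiableAt) fun y => by
      rw [(d _ y).deriv]
      exact mul_nonpos_of_nonpos_of_nonneg (by nlinarith [(abs_le.1 (h2 y)).2, h.pos y])
        (Real.exp_pos _).le
  have e1 : Real.exp (k / 16 * y) = ex k 1 t * Real.exp (k / 16 * (y + t)) := by
    unfold ex; rw [← Real.exp_add]; congr 1; ring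
  have e2 : Real.exp (-(k / 16) * (y + t)) = ex k 1 t * Real.exp (-(k / 16) * y) := by
    unfold ex; rw [← Real.exp_add]; congr 1; ring
  have k1 := m1 (show y ≤ y + t by linarith)
  have k2 := m2 (show y ≤ y + t by linarith)
  simp only at k1 k2
  rw [e1] at k1
  rw [e2] at k2
  exact ⟨le_of_mul_le_mul_right (by linarith) (Real.exp_pos (k / 16 * (y + t))),
    le_of_mul_le_mul_right (by linarith) (Real.exp_pos (-(k / 16) * y))⟩

/-- The numbers at the point (t, x). -/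
noncomputable def nu (k : ℝ) (a A : ℝ → ℝ) (A0 t x : ℝ) : Nu :=
  ⟨k / 16, min 1 (k / 16), 2 + A0, ex k 1 t, a (t - x), a (t + x), a x, ph k A t (t - x),
    ph k A t (t + x)⟩

theorem nu_ok (hk : 0 < k) (h : Wt k a A A0) (ht : 0 ≤ t) : (nu k a A A0 t x).OK := by
  have e : a (t - x) = a (x - t) := by rw [← h.even]; congr 1; ring
  have c1 := wt_cmp hk h ht x
  have c2 := wt_cmp hk h ht (x - t)
  have h1 := ex_le hk ht
  have h0 := ex_pos k 1 t
  rw [add_comm x] at c1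
  rw [sub_add_cancel, ← e] at c2
  have p : ∀ y, 1 ≤ ph k A t y ∧ ph k A t y ≤ 2 + A0 := fun y => by
    unfold ph; constructor <;> linarith [h.nn y, h.bd y]
  exact ⟨lt_min one_pos (by positivity), min_le_left _ _, min_le_right _ _,
    by simp only [nu]; linarith [h.nn 0, h.bd 0], h0, h1, h.pos _, h.le _, h.pos _, h.le _,
    h.pos _, h.le _, c2.2, c1.1, c2.1, c1.2, (p _).1, (p _).2, (p _).1, (p _).2⟩

theorem barY_eq (c : Cl) : barY k a A c t x = (nu k a A A0 t x).yb c := by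
  cases c <;> simp only [barY, bY, Nu.yb, nu, ex2, ex4]

theorem barZ_eq (i : Ix) : barZ k a A i t x = (nu k a A A0 t x).zb i := by
  unfold barZ Nu.zb
  rw [barY_eq (A0 := A0)]
  cases i <;> simp [odd, cls, isW, isQ, cN, tv, bZ, Nu.at, nu, ex8]

theorem aff (y p : ℝ) : HasDerivAt (fun s : ℝ => y + p * s) p 0 :=
  (((hasDerivAt_id (0 : ℝ)).const_mul p).const_add y).congr_deriv (mul_one p)

theorem d_v {f : ℝ → ℝ} {f' : ℝ} (h : HasDerivAt f f' (t + x)) (p q : ℝ) :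
    HasDerivAt (fun s : ℝ => f (t + p * s + (x + q * s))) (f' * (p + q)) 0 :=
  h.comp_of_eq 0 ((aff t p).add (aff x q)) (by simp)

theorem d_u {f : ℝ → ℝ} {f' : ℝ} (h : HasDerivAt f f' (t - x)) (p q : ℝ) :
    HasDerivAt (fun s : ℝ => f (t + p * s - (x + q * s))) (f' * (p - q)) 0 :=
  h.comp_of_eq 0 ((aff t p).sub (aff x q)) (by simp)

theorem d_x {f : ℝ → ℝ} {f' : ℝ} (h : HasDerivAt f f' x) (q : ℝ) :
    HasDerivAt (fun s : ℝ => f (x + q * s)) (f' * q) 0 :=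
  h.comp_of_eq 0 (aff x q) (by simp)

theorem d_e (k m t p : ℝ) : HasDerivAt (fun s : ℝ => ex k m (t + p * s))
    (ex k m t * (-(m * k / 16) * p)) 0 :=
  (((aff t p).const_mul (-(m * k / 16))).exp).congr_deriv (by simp [ex])

theorem d_pu (h : Wt k a A A0) (p q : ℝ) :
    HasDerivAt (fun s : ℝ => ph k A (t + p * s) (t + p * s - (x + q * s)))
      (a (t - x) * (p - q) + k / 16 * p * ex k 1 t) 0 :=
  (((d_u (h.prim _) p q).const_add 2).sub (d_e k 1 t p)).congr_deriv (by ring)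

theorem d_pv (h : Wt k a A A0) (p q : ℝ) :
    HasDerivAt (fun s : ℝ => ph k A (t + p * s) (t + p * s + (x + q * s)))
      (a (t + x) * (p + q) + k / 16 * p * ex k 1 t) 0 :=
  (((d_v (h.prim _) p q).const_add 2).sub (d_e k 1 t p)).congr_deriv (by ring)

theorem kindY (i : Ix) : (cls i = .V ∧ c0 i = 1 ∧ c1 i = -1 ∧ dmp i = 0) ∨
    (cls i = .U ∧ c0 i = 1 ∧ c1 i = 1 ∧ dmp i = 0) ∨
    (cls i = .Vd ∧ c0 i = 1 ∧ c1 i = 1 ∧ dmp i = 2) ∨
    (cls i = .Ud ∧ c0 i = 1 ∧ c1 i = -1 ∧ dmp i = 2) ∨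
    (cls i = .M ∧ c0 i = 2 ∧ c1 i = 0 ∧ dmp i = 4) ∨
    (cls i = .D ∧ c0 i = 1 ∧ c1 i = -1 ∧ dmp i = 1) ∨
    (cls i = .D ∧ c0 i = 1 ∧ c1 i = 1 ∧ dmp i = 1) ∨
    (cls i = .D ∧ c0 i = 2 ∧ c1 i = 0 ∧ dmp i = 4) ∨
    (cls i = .P ∧ c0 i = 1 ∧ c1 i = -1 ∧ dmp i = 1) := by
  cases i <;> decide

theorem derY (hk : 0 < k) (h : Wt k a A A0) (i : Ix) : ∃ B', HasDerivAt
    (fun s : ℝ => barY k a A (cls i) (t + c0 i * s) (x + c1 i * s)) B' 0 ∧
    (nu k a A A0 t x).sy (cls i) ≤ B' + dmp i * (k / 2) * (nu k a A A0 t x).yb (cls i) := by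
  obtain ⟨u', hu, bu⟩ := h.der (t - x)
  obtain ⟨v', hv, bv⟩ := h.der (t + x)
  obtain ⟨x', hx, bx⟩ := h.der x
  have bu := abs_le.1 bu
  have bv := abs_le.1 bv
  have bx := abs_le.1 bx
  have u0 := h.pos (t - x)
  have v0 := h.pos (t + x)
  have x0 := h.pos x
  have w2 := pow_pos (ex_pos k 1 t) 2
  have w4 := pow_pos (ex_pos k 1 t) 4
  have q1 := mul_le_mul_of_nonneg_left bx.1 w2.le
  have q2 := mul_le_mul_of_nonneg_left bx.2 w2.le
  have q3 := mul_le_mul_of_nonneg_left bx.2 w4.le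
  have q4 := mul_pos hk (mul_pos w2 x0)
  have q5 := mul_pos hk (mul_pos w4 x0)
  rcases kindY i with e | e | e | e | e | e | e | e | e <;> rw [e.1, e.2.1, e.2.2.1, e.2.2.2]
  · refine ⟨_, (d_v hv _ _).mul (d_pu h _ _), le_of_eq ?_⟩
    simp only [Nu.sy, Nu.yb, nu, mul_zero, add_zero]
    push_cast
    ring
  · refine ⟨_, (d_u hu _ _).mul (d_pv h _ _), le_of_eq ?_⟩
    simp only [Nu.sy, Nu.yb, nu, mul_zero, add_zero]
    push_cast
    ring
  · refine ⟨_, d_v hv _ _, ?_⟩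
    simp only [Nu.sy, Nu.yb, nu]
    push_cast
    nlinarith [mul_pos hk v0]
  · refine ⟨_, d_u hu _ _, ?_⟩
    simp only [Nu.sy, Nu.yb, nu]
    push_cast
    nlinarith [mul_pos hk u0]
  · refine ⟨_, ((d_u hu _ _).mul (d_v hv _ _)).add ((d_e k 2 t _).mul (d_x hx _)), ?_⟩
    simp only [Nu.sy, Nu.yb, nu, mul_zero, add_zero, ex2]
    push_cast
    nlinarith [mul_le_mul_of_nonneg_left bu.1 v0.le, mul_le_mul_of_nonneg_left bv.1 u0.le,
      mul_pos hk (mul_pos u0 v0)]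
  · refine ⟨_, (d_e k 2 t _).mul (d_x hx _), ?_⟩
    simp only [Nu.sy, Nu.yb, nu, mul_zero, add_zero, ex2]
    push_cast
    linarith
  · refine ⟨_, (d_e k 2 t _).mul (d_x hx _), ?_⟩
    simp only [Nu.sy, Nu.yb, nu, mul_zero, add_zero, ex2]
    push_cast
    linarith
  · refine ⟨_, (d_e k 2 t _).mul (d_x hx _), ?_⟩
    simp only [Nu.sy, Nu.yb, nu, mul_zero, add_zero, ex2]
    push_cast
    linarith
  · refine ⟨_, (d_e k 4 t _).mul (d_x hx _), ?_⟩
    simp only [Nu.sy, Nu.yb, nu, mul_zero, add_zero, ex4]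
    push_cast
    linarith

theorem kindZ (i : Ix) : odd i →
    (isQ i = true ∧ isW i = true ∧ c0 i = 2 ∧ c1 i = 0 ∧ dmp i = 4) ∨
    (isQ i = false ∧ isW i = false ∧ tv i = false ∧ cN i = 1 ∧ c0 i = 1 ∧ c1 i = -1 ∧ dmp i = 1) ∨
    (isQ i = false ∧ isW i = false ∧ tv i = true ∧ cN i = 0 ∧ c0 i = 1 ∧ c1 i = 1 ∧ dmp i = 1) := by
  cases i <;> decide

theorem bZ_eq {i : Ix} (h : isQ i) (t x : ℝ) :
    bZ k a i t x = ex k 8 t * ((if tv i then a (t + x) else a (t - x)) + ex k 1 t) := by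
  cases i <;> first | exact absurd h (by decide) | rfl

theorem derZ (hk : 0 < k) (h : Wt k a A A0) {i : Ix} (hi : odd i) : ∃ B', HasDerivAt
    (fun s : ℝ => barZ k a A i (t + c0 i * s) (x + c1 i * s)) B' 0 ∧
    (nu k a A A0 t x).sz i ≤ B' + dmp i * (k / 2) * (nu k a A A0 t x).zb i := by
  obtain ⟨u', hu, bu⟩ := h.der (t - x)
  obtain ⟨v', hv, bv⟩ := h.der (t + x)
  have bu := abs_le.1 bu
  have bv := abs_le.1 bv
  have u0 := h.pos (t - x)
  have v0 := h.pos (t + x)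
  have w1 := ex_pos k 1 t
  have w8 := pow_pos w1 8
  have m1 := min_le_left 1 (k / 16)
  have m2 := min_le_right 1 (k / 16)
  have q1 := mul_le_mul_of_nonneg_right m1 (mul_pos w8 u0).le
  have q2 := mul_le_mul_of_nonneg_right m1 (mul_pos w8 v0).le
  have q3 := mul_le_mul_of_nonneg_right m2 (mul_pos w8 w1).le
  have q4 := mul_le_mul_of_nonneg_right m2 (mul_pos w8 u0).le
  have q5 := mul_le_mul_of_nonneg_right m2 (mul_pos w8 v0).le
  have q6 := mul_pos hk (mul_pos w8 u0)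
  have q7 := mul_pos hk (mul_pos w8 v0)
  have q8 := mul_pos hk (mul_pos w8 w1)
  have q9 := mul_le_mul_of_nonneg_left bu.1 w8.le
  have q10 := mul_le_mul_of_nonneg_left bv.1 w8.le
  have q11 := mul_pos w8 u0
  have q12 := mul_pos w8 v0
  rcases kindZ i hi with ⟨e1, e2, e3, e4, e5⟩ | ⟨e1, e2, e3, e4, e5, e6, e7⟩ |
    ⟨e1, e2, e3, e4, e5, e6, e7⟩
  · simp only [barZ, Nu.zb, Nu.sz, hi, e1, e2, e3, e4, e5, if_true, bZ_eq e1, Nu.at]
    cases tv i <;> simp only [if_true, Bool.false_eq_true, if_false]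
    · refine ⟨_, (d_e k 8 t _).mul ((d_u hu _ _).add (d_e k 1 t _)), ?_⟩
      simp only [nu, mul_zero, add_zero, ex8]
      push_cast
      linarith
    · refine ⟨_, (d_e k 8 t _).mul ((d_v hv _ _).add (d_e k 1 t _)), ?_⟩
      simp only [nu, mul_zero, add_zero, ex8]
      push_cast
      linarith
  · simp only [barZ, Nu.zb, Nu.sz, hi, e1, e2, e3, e4, e5, e6, e7, if_true, Nu.at,
      Bool.false_eq_true, if_false]
    refine ⟨_, (d_e k 8 t _).mul (d_pu h _ _), ?_⟩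
    simp only [nu, mul_zero, add_zero, ex8]
    push_cast
    linarith
  · simp only [barZ, Nu.zb, Nu.sz, hi, e1, e2, e3, e4, e5, e6, e7, if_true, Nu.at,
      Bool.false_eq_true, if_false, zero_ne_one]
    refine ⟨_, (d_e k 8 t _).mul (d_pv h _ _), ?_⟩
    simp only [nu, mul_zero, add_zero, ex8]
    push_cast
    linarith

end Vale.Agent.P354AY
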