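import Vale.Agent.P354A.Defs

/-!
P354 (helper51): the table rules and the numerical inequalities of the barrier argument.
-/

open Set

namespace Vale.Agent.P354AY

open Vale.Agent.P354C Vale.Agent.P354C.Ix Vale.Agent.P354A

theorem list_bound {α : Type} (L : List α) (c : α → ℤ) (f : α → ℝ) {B : ℝ}
    (h : ∀ t ∈ L, c t = 0 ∨ f t ≤ B) :
    (L.map fun t => |(c t : ℝ)| * f t).sum ≤ ((L.map fun t => |c t|).sum : ℤ) * B := by
  induction L with
  | nil => simp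
  | cons t L ih =>
    simp only [List.map_cons, List.sum_cons, Int.cast_add, Int.cast_abs, add_mul]
    refine add_le_add ?_ (ih fun s hs => h s (List.mem_cons_of_mem _ hs))
    rcases h t List.mem_cons_self with k | k
    · simp [k]
    · exact mul_le_mul_of_nonneg_left k (abs_nonneg _)

theorem sum_lin (i : Ix) : ((lin i).map fun t => |t.1|).sum ≤ 100 := by cases i <;> decide
theorem sum_pairs (i : Ix) : ((pairs i).map fun t => |t.1|).sum ≤ 100 := by cases i <;> decide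
theorem sum_fa (i : Ix) : ((fa i).map fun t => |t.1|).sum ≤ 100 := by cases i <;> decide

theorem list_100 {α : Type} (L : List α) (c : α → ℤ) (f : α → ℝ) {B : ℝ} (hB : 0 ≤ B)
    (hs : (L.map fun t => |c t|).sum ≤ 100) (h : ∀ t ∈ L, c t = 0 ∨ f t ≤ B) :
    (L.map fun t => |(c t : ℝ)| * f t).sum ≤ 100 * B :=
  (list_bound L c f h).trans (mul_le_mul_of_nonneg_right (by exact_mod_cast hs) hB)

theorem beat_of (n : ℕ) (i : Ix) (g lo H : Ix → ℝ) {Z : ℝ} (hZ : 0 < Z)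
    (hl : ∀ t ∈ lin i, lo t.2 ≤ Z / 400)
    (hp : ∀ t ∈ pairs i, t.1 = 0 ∨ g t.2.1 * lo t.2.2 + lo t.2.1 * g t.2.2 + lo t.2.1 * lo t.2.2 +
      lo t.2.1 * lo t.2.2 ≤ Z / (400 * 2 ^ n))
    (ha : ∀ t ∈ fa i, (g t.2.1 + lo t.2.1) * H t.2.2.2 ≤ Z / 400) :
    RB n i g lo lo + AB i g lo H < Z := by
  have h1 := list_100 (lin i) (fun t => t.1) (fun t => lo t.2) (by positivity) (sum_lin i)
    fun t ht => Or.inr (hl t ht)
  have h2 := list_100 (pairs i) (fun t => t.1) _ (by positivity) (sum_pairs i) hp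
  have h3 := list_100 (fa i) (fun t => t.1) (fun t => (g t.2.1 + lo t.2.1) * H t.2.2.2)
    (by positivity) (sum_fa i) fun t ht => Or.inr (ha t ht)
  have h4 := mul_le_mul_of_nonneg_left h2 (show (0 : ℝ) ≤ 2 ^ n by positivity)
  rw [show (2 : ℝ) ^ n * (100 * (Z / (400 * 2 ^ n))) = Z / 4 by field_simp; ring] at h4
  unfold RB AB
  linarith

/-! ### The rules -/

def nU (c : Cl) : Bool := c ≠ .U ∧ c ≠ .Ud
def nV (c : Cl) : Bool := c ≠ .V ∧ c ≠ .Vd
def dP (c : Cl) : Bool := c = .D ∨ c = .P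

def linY : Cl → Cl → Bool
  | .V, .M | .U, .M | .D, .D | .Vd, .V | .Ud, .U => true
  | _, _ => false

def prY : Cl → Cl → Cl → Bool
  | .V, j, l | .U, j, l | .M, j, l => nU j ∧ nV l
  | .Vd, j, _ => nU j
  | .Ud, j, _ => nV j
  | .D, j, _ => dP j
  | .P, j, _ => j = .P

/-- The side of an odd unknown. -/
def tv : Ix → Bool
  | .be1 | .be2 | .q1 | .q2 | .A1 | .A2 => true
  | _ => false

def side (b : Bool) (c : Cl) : Bool := if b then nU c else nV c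

def prZ (i j l : Ix) : Bool :=
  odd j ∧ ¬ odd l ∧ (side (tv i) (cls l) ∨ (isQ j ∧ tv j = tv i))

theorem rule_linY (i : Ix) : ∀ t ∈ lin i, isW i = false ∧ isW t.2 ∧ linY (cls i) (cls t.2) := by
  cases i <;> decide
theorem rule_prY (i : Ix) : ∀ t ∈ pairs i, t.1 = 0 ∨ prY (cls i) (cls t.2.1) (cls t.2.2) ∨
    prY (cls i) (cls t.2.2) (cls t.2.1) := by
  cases i <;> decide
theorem rule_faY (i : Ix) : ∀ t ∈ fa i, cls i ≠ .P ∧ cls t.2.1 = .P := by cases i <;> decide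
theorem rule_linZ (i : Ix) : odd i → ∀ t ∈ lin i, isW i = false ∧ isW t.2 ∧ isQ t.2 ∧
    tv t.2 = tv i := by
  cases i <;> decide
theorem rule_prZ (i : Ix) : odd i → ∀ t ∈ pairs i, t.1 = 0 ∨ prZ i t.2.1 t.2.2 ∨
    prZ i t.2.2 t.2.1 := by
  cases i <;> decide
theorem rule_faZ (i : Ix) : odd i → ∀ t ∈ fa i, odd t.2.1 ∧ side (tv i) (cls t.2.2.2) := by
  cases i <;> decide

/-! ### The numbers at one point -/

structure Nu where
  κ : ℝ
  μ : ℝ
  G : ℝ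
  ω : ℝ
  au : ℝ
  av : ℝ
  ax : ℝ
  pu : ℝ
  pv : ℝ

structure Nu.OK (N : Nu) : Prop where
  μ0 : 0 < N.μ
  μ1 : N.μ ≤ 1
  μκ : N.μ ≤ N.κ
  G2 : 2 ≤ N.G
  ω0 : 0 < N.ω
  ω1 : N.ω ≤ 1
  u0 : 0 < N.au
  u1 : N.au ≤ 1
  v0 : 0 < N.av
  v1 : N.av ≤ 1
  x0 : 0 < N.ax
  x1 : N.ax ≤ 1
  xu : N.ω * N.ax ≤ N.au
  xv : N.ω * N.ax ≤ N.av
  ux : N.ω * N.au ≤ N.ax
  vx : N.ω * N.av ≤ N.ax
  pu1 : 1 ≤ N.pu
  puG : N.pu ≤ N.G
  pv1 : 1 ≤ N.pv
  pvG : N.pv ≤ N.G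

def Nu.yb (N : Nu) : Cl → ℝ
  | .V => N.av * N.pu
  | .U => N.au * N.pv
  | .Vd => N.av
  | .Ud => N.au
  | .M => N.au * N.av + N.ω ^ 2 * N.ax
  | .D => N.ω ^ 2 * N.ax
  | .P => N.ω ^ 4 * N.ax

def Nu.sy (N : Nu) : Cl → ℝ
  | .V => N.av * (2 * N.au + N.κ * N.ω)
  | .U => N.au * (2 * N.av + N.κ * N.ω)
  | c => 3 * N.κ * N.yb c

def Nu.at (N : Nu) (b : Bool) : ℝ := if b then N.av else N.au

def Nu.zb (N : Nu) (i : Ix) : ℝ :=
  if odd i then (if isQ i then N.ω ^ 8 * (N.at (tv i) + N.ω)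
    else N.ω ^ 8 * (if tv i then N.pv else N.pu)) else N.yb (cls i)

def Nu.sz (N : Nu) (i : Ix) : ℝ := N.μ * (N.ω ^ 8 * (N.at (tv i) + N.ω))

namespace Nu.OK
variable {N : Nu} (h : N.OK)
include h

theorem pw {m n : ℕ} (k : m ≤ n) : N.ω ^ n ≤ N.ω ^ m := pow_le_pow_of_le_one h.ω0.le h.ω1 k

theorem pwx {m n : ℕ} (k : m ≤ n) : N.ω ^ n * N.ax ≤ N.ω ^ m * N.ax :=
  mul_le_mul_of_nonneg_right (h.pw k) h.x0.le

theorem pwx1 {n : ℕ} (k : 1 ≤ n) : N.ω ^ n * N.ax ≤ N.ω * N.ax := by simpa using h.pwx k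

theorem yb_pos (c : Cl) : 0 < N.yb c := by
  have := h.ω0; have := h.u0; have := h.v0; have := h.x0; have := h.pu1; have := h.pv1
  cases c <;> simp only [Nu.yb] <;> positivity

theorem yb_v {c : Cl} (k : nU c) : N.yb c ≤ N.G * N.av := by
  have h2 := h.pwx1 (n := 2) (by norm_num)
  have h4 := h.pwx1 (n := 4) (by norm_num)
  have h5 := mul_le_mul_of_nonneg_right h.G2 h.v0.le
  have h6 := mul_le_mul_of_nonneg_right h.u1 h.v0.le
  have h7 := mul_le_mul_of_nonneg_right h.puG h.v0.le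
  cases c <;> simp only [Nu.yb] <;> first | exact absurd k (by decide) | linarith [h.xv, h.v0]

theorem yb_u {c : Cl} (k : nV c) : N.yb c ≤ N.G * N.au := by
  have h2 := h.pwx1 (n := 2) (by norm_num)
  have h4 := h.pwx1 (n := 4) (by norm_num)
  have h5 := mul_le_mul_of_nonneg_right h.G2 h.u0.le
  have h6 := mul_le_mul_of_nonneg_right h.v1 h.u0.le
  have h7 := mul_le_mul_of_nonneg_right h.pvG h.u0.le
  cases c <;> simp only [Nu.yb] <;> first | exact absurd k (by decide) | linarith [h.xu, h.u0]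

theorem G0 : 0 < N.G := by linarith [h.G2]

theorem yb_G (c : Cl) : N.yb c ≤ N.G := by
  rcases show nU c ∨ nV c by cases c <;> decide with k | k
  · exact (h.yb_v k).trans (mul_le_of_le_one_right h.G0.le h.v1)
  · exact (h.yb_u k).trans (mul_le_of_le_one_right h.G0.le h.u1)

theorem yb_x (c : Cl) : N.ω * N.yb c ≤ N.G * N.ax := by
  rcases show nU c ∨ nV c by cases c <;> decide with k | k
  · nlinarith [mul_le_mul_of_nonneg_left (h.yb_v k) h.ω0.le, mul_le_mul_of_nonneg_left h.vx h.G0.le]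
  · nlinarith [mul_le_mul_of_nonneg_left (h.yb_u k) h.ω0.le, mul_le_mul_of_nonneg_left h.ux h.G0.le]

theorem yb_D {c : Cl} (k : dP c) : N.yb c ≤ N.ω ^ 2 * N.ax := by
  have h4 := h.pwx (m := 2) (n := 4) (by norm_num)
  cases c <;> simp only [Nu.yb] <;> first | exact absurd k (by decide) | linarith

theorem mu_le {x y : ℝ} (hy : 0 ≤ y) (k : x ≤ y) : N.μ * x ≤ 3 * N.κ * y := by
  nlinarith [mul_le_mul_of_nonneg_left k h.μ0.le, mul_le_mul_of_nonneg_right h.μκ hy, h.μ0]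

theorem sy_V : N.μ * (N.au * N.av + N.ω * N.av) ≤ N.sy .V := by
  simp only [Nu.sy]
  nlinarith [mul_le_mul_of_nonneg_right h.μ1 (mul_pos h.u0 h.v0).le,
    mul_le_mul_of_nonneg_right h.μκ (mul_pos h.ω0 h.v0).le, mul_pos h.u0 h.v0]

theorem sy_U : N.μ * (N.au * N.av + N.ω * N.au) ≤ N.sy .U := by
  simp only [Nu.sy]
  nlinarith [mul_le_mul_of_nonneg_right h.μ1 (mul_pos h.u0 h.v0).le,
    mul_le_mul_of_nonneg_right h.μκ (mul_pos h.ω0 h.u0).le, mul_pos h.u0 h.v0]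

theorem sy_M {c : Cl} (k : c = .V ∨ c = .U ∨ c = .M) : N.μ * N.yb .M ≤ N.sy c := by
  have h1 := mul_le_mul_of_nonneg_left h.xv h.ω0.le
  have h2 := mul_le_mul_of_nonneg_left h.xu h.ω0.le
  rcases k with rfl | rfl | rfl
  · exact (mul_le_mul_of_nonneg_left (by simp only [Nu.yb]; linarith) h.μ0.le).trans h.sy_V
  · exact (mul_le_mul_of_nonneg_left (by simp only [Nu.yb]; linarith) h.μ0.le).trans h.sy_U
  · exact h.mu_le (h.yb_pos _).le le_rfl

theorem sy_low (c : Cl) : N.μ * (N.ω ^ 4 * N.ax) ≤ N.sy c ∧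
    (c ≠ .P → N.μ * (N.ω ^ 2 * N.ax) ≤ N.sy c) := by
  have h4 := mul_le_mul_of_nonneg_left (h.pwx (m := 2) (n := 4) (by norm_num)) h.μ0.le
  have h2 := h.pwx1 (n := 2) (by norm_num)
  have hM : N.μ * (N.ω ^ 2 * N.ax) ≤ N.μ * N.yb .M := mul_le_mul_of_nonneg_left
    (by simp only [Nu.yb]; linarith [mul_pos h.u0 h.v0]) h.μ0.le
  have k : c ≠ .P → N.μ * (N.ω ^ 2 * N.ax) ≤ N.sy c := fun k => by
    cases c
    · exact hM.trans (h.sy_M (Or.inl rfl))
    · exact h.mu_le h.v0.le (h2.trans h.xv)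
    · exact hM.trans (h.sy_M (Or.inr (Or.inl rfl)))
    · exact h.mu_le h.u0.le (h2.trans h.xu)
    · exact hM.trans (h.sy_M (Or.inr (Or.inr rfl)))
    · exact h.mu_le (h.yb_pos .D).le le_rfl
    · exact absurd rfl k
  refine ⟨?_, k⟩
  by_cases e : c = .P
  · subst e
    exact h.mu_le (h.yb_pos .P).le le_rfl
  · exact h4.trans (k e)

theorem sy_pos (c : Cl) : 0 < N.sy c :=
  lt_of_lt_of_le (mul_pos h.μ0 (mul_pos (pow_pos h.ω0 4) h.x0)) (h.sy_low c).1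

theorem up {x y : ℝ} (hy : 0 ≤ y) (k : x ≤ y) : x ≤ N.G * y :=
  k.trans (le_mul_of_one_le_left hy (by linarith [h.G2]))

theorem scale {x y z : ℝ} (k : x ≤ N.G * y) (k' : N.μ * y ≤ z) : N.μ * x ≤ N.G * z := by
  nlinarith [mul_le_mul_of_nonneg_left k h.μ0.le, mul_le_mul_of_nonneg_left k' h.G0.le]

theorem lin_le {c d : Cl} (k : linY c d) : N.μ * N.yb d ≤ N.G * N.sy c := by
  cases c <;> cases d <;> first | exact absurd k (by decide) | skip
  · exact h.up (h.sy_pos _).le (h.sy_M (Or.inl rfl))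
  · exact h.scale (h.yb_v (by decide)) (h.mu_le h.v0.le le_rfl)
  · exact h.up (h.sy_pos _).le (h.sy_M (Or.inr (Or.inl rfl)))
  · exact h.scale (h.yb_u (by decide)) (h.mu_le h.u0.le le_rfl)
  · exact h.up (h.sy_pos _).le (h.mu_le (h.yb_pos _).le le_rfl)

theorem two {x x' y y' z : ℝ} (h0 : 0 ≤ y) (h1 : 0 ≤ x') (k : x ≤ N.G * x') (k' : y ≤ N.G * y')
    (k'' : N.μ * (x' * y') ≤ z) : N.μ * (x * y) ≤ N.G ^ 2 * z := by
  have e1 := mul_le_mul k k' h0 (mul_nonneg h.G0.le h1)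
  nlinarith [mul_le_mul_of_nonneg_left e1 h.μ0.le,
    mul_le_mul_of_nonneg_left k'' (sq_nonneg N.G)]

theorem pr_le {c d e : Cl} (k : prY c d e) : N.μ * (N.yb d * N.yb e) ≤ N.G ^ 2 * N.sy c := by
  have hM : N.μ * (N.av * N.au) ≤ N.μ * N.yb .M := mul_le_mul_of_nonneg_left
    (by simp only [Nu.yb]; linarith [mul_pos (pow_pos h.ω0 2) h.x0]) h.μ0.le
  have he := (h.yb_pos e).le
  have hG : N.yb e ≤ N.G * 1 := by rw [mul_one]; exact h.yb_G e
  cases c <;> simp only [prY, Bool.decide_and, Bool.decide_eq_true, Bool.and_eq_true,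
    decide_eq_true_eq] at k
  · exact h.two he h.v0.le (h.yb_v k.1) (h.yb_u k.2) (hM.trans (h.sy_M (Or.inl rfl)))
  · exact h.two he h.v0.le (h.yb_v k) hG (h.mu_le h.v0.le (mul_one _).le)
  · exact h.two he h.v0.le (h.yb_v k.1) (h.yb_u k.2) (hM.trans (h.sy_M (Or.inr (Or.inl rfl))))
  · exact h.two he h.u0.le (h.yb_u k) hG (h.mu_le h.u0.le (mul_one _).le)
  · exact h.two he h.v0.le (h.yb_v k.1) (h.yb_u k.2) (hM.trans (h.sy_M (Or.inr (Or.inr rfl))))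
  · exact h.two he (h.yb_pos .D).le (h.up (h.yb_pos .D).le (h.yb_D k)) hG
      (h.mu_le (h.yb_pos .D).le (mul_one _).le)
  · subst k
    exact h.two he (h.yb_pos .P).le (h.up (h.yb_pos .P).le le_rfl) hG
      (h.mu_le (h.yb_pos .P).le (mul_one _).le)

theorem at_pos (b : Bool) : 0 < N.at b := by
  unfold Nu.at; split_ifs; exacts [h.v0, h.u0]

theorem at_le (b : Bool) : N.at b ≤ 1 := by
  unfold Nu.at; split_ifs; exacts [h.v1, h.u1]

theorem yb_side {b : Bool} {c : Cl} (k : side b c) : N.yb c ≤ N.G * N.at b := by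
  cases b
  · exact h.yb_u k
  · exact h.yb_v k

theorem zb_pos (i : Ix) : 0 < N.zb i := by
  have := h.ω0; have := h.at_pos (tv i); have := h.pu1; have := h.pv1
  unfold Nu.zb
  split_ifs <;> first | positivity | exact h.yb_pos _

theorem zb_odd {i : Ix} (k : odd i) : N.zb i ≤ N.G * N.ω ^ 8 := by
  have h8 := (pow_pos h.ω0 8).le
  unfold Nu.zb
  rw [if_pos k, mul_comm N.G]
  split_ifs
  · exact mul_le_mul_of_nonneg_left (by linarith [h.at_le (tv i), h.ω1, h.G2]) h8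
  · exact mul_le_mul_of_nonneg_left h.pvG h8
  · exact mul_le_mul_of_nonneg_left h.puG h8

theorem sz_pos (i : Ix) : 0 < N.sz i :=
  mul_pos h.μ0 (mul_pos (pow_pos h.ω0 8) (add_pos (h.at_pos _) h.ω0))

end Nu.OK

theorem zb_Q (N : Nu) {i : Ix} (k : isQ i) : N.zb i = N.ω ^ 8 * (N.at (tv i) + N.ω) := by
  unfold Nu.zb
  rw [if_pos (by revert k; cases i <;> decide), if_pos k]

theorem zb_even (N : Nu) {i : Ix} (k : ¬ odd i) : N.zb i = N.yb (cls i) := if_neg k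

end Vale.Agent.P354AY
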