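import Vale.Agent.P354A.Defs

/-!
P354 (helper51): existence of the weights.
-/

open scoped ContDiff
open Set MeasureTheory

namespace Vale.Agent.P354AY

open Vale.Agent.P354A

/-- The rescaled power of the Japanese bracket. -/
noncomputable def aw (s L y : ℝ) : ℝ := (1 + (y / L) ^ 2) ^ (-s / 2)

theorem aw_sm (s L : ℝ) : ContDiff ℝ ∞ (aw s L) :=
  (contDiff_const.add ((contDiff_id.div_const L).pow 2)).rpow_const_of_ne fun y => by positivity

theorem aw_pos (s L y : ℝ) : 0 < aw s L y := by unfold aw; positivity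

theorem aw_low {s L : ℝ} (hs : 0 ≤ s) (hL : 1 ≤ L) (y : ℝ) :
    (1 + y ^ 2) ^ (-s / 2) ≤ aw s L y := by
  refine Real.rpow_le_rpow_of_nonpos (by positivity) ?_ (by linarith)
  rw [div_pow]
  linarith [div_le_self (sq_nonneg y) (one_le_pow₀ hL (n := 2))]

theorem aw_up {s L : ℝ} (hs : 0 ≤ s) (hL : 1 ≤ L) (y : ℝ) :
    aw s L y ≤ ((L ^ 2)⁻¹) ^ (-s / 2) * (1 + y ^ 2) ^ (-s / 2) := by
  have h0 : 0 < L := by linarith
  rw [← Real.mul_rpow (by positivity) (by positivity)]
  refine Real.rpow_le_rpow_of_nonpos (by positivity) ?_ (by linarith)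
  have h1 : (L ^ 2)⁻¹ ≤ 1 := inv_le_one_of_one_le₀ (one_le_pow₀ hL)
  rw [div_pow, div_eq_inv_mul]
  linarith

theorem aw_int {s L : ℝ} (hs : 1 < s) (hL : 1 ≤ L) : Integrable (aw s L) := by
  have h := integrable_rpow_neg_one_add_norm_sq (E := ℝ) (μ := volume) (r := s) (by simpa using hs)
  refine (h.const_mul (((L ^ 2)⁻¹) ^ (-s / 2))).mono' (aw_sm s L).continuous.aestronglyMeasurable
    (Filter.Eventually.of_forall fun y => ?_)
  rw [Real.norm_of_nonneg (aw_pos s L y).le, Real.norm_eq_abs, sq_abs]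
  exact aw_up (by linarith) hL y

theorem aw_der {s L : ℝ} (hs : 0 ≤ s) (hL : 0 < L) (y : ℝ) :
    ∃ a', HasDerivAt (aw s L) a' y ∧ |a'| ≤ s / L * aw s L y := by
  have h0 : 0 < 1 + (y / L) ^ 2 := by positivity
  have h1 : HasDerivAt (fun y : ℝ => 1 + (y / L) ^ 2) (2 * (y / L) * (1 / L)) y := by
    simpa using (((hasDerivAt_id y).div_const L).pow 2).const_add 1
  refine ⟨_, h1.rpow_const (p := -s / 2) (Or.inl h0.ne'), ?_⟩
  have h2 : |y / L| ≤ 1 + (y / L) ^ 2 := by
    rw [← sq_abs]; nlinarith [sq_nonneg (|y / L| - 1), abs_nonneg (y / L)]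
  have h3 : 2 * (y / L) * (1 / L) * (-s / 2) * (1 + (y / L) ^ 2) ^ (-s / 2 - 1) =
      -(y / L / (1 + (y / L) ^ 2)) * (s / L * aw s L y) := by
    rw [Real.rpow_sub_one h0.ne', aw]
    field_simp
  have h4 : 0 ≤ s / L * aw s L y := mul_nonneg (by positivity) (aw_pos s L y).le
  rw [h3, abs_mul, abs_neg, abs_div, abs_of_pos h0, abs_of_nonneg h4]
  exact mul_le_of_le_one_left h4 ((div_le_one h0).2 h2)

theorem wt_aw {k s L : ℝ} (hs : 1 < s) (hL : 1 ≤ L) (hk : s / L ≤ k / 64) :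
    Wt k (aw s L) (fun y => ∫ x in Iic y, aw s L x) (∫ x, aw s L x) := by
  have hi := aw_int hs hL
  refine ⟨aw_pos s L, fun y => ?_, fun y => by simp [aw, neg_div], fun y => ?_, fun y => ?_,
    fun y => integral_nonneg fun x => (aw_pos s L x).le,
    fun y => setIntegral_le_integral hi (Filter.Eventually.of_forall fun x => (aw_pos s L x).le)⟩
  · exact Real.rpow_le_one_of_one_le_of_nonpos (by linarith [sq_nonneg (y / L)]) (by linarith)
  · obtain ⟨a', h1, h2⟩ := aw_der (s := s) (L := L) (by linarith) (by linarith) y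
    exact ⟨a', h1, h2.trans (mul_le_mul_of_nonneg_right hk (aw_pos s L y).le)⟩
  · have h : (fun y => ∫ x in Iic y, aw s L x) =
        fun y => (∫ x in Iic 0, aw s L x) + ∫ x in (0 : ℝ)..y, aw s L x := by
      funext y
      rw [← intervalIntegral.integral_Iic_sub_Iic hi.integrableOn hi.integrableOn]
      ring
    rw [h]
    exact ((aw_sm s L).continuous.integral_hasStrictDerivAt 0 y).hasDerivAt.const_add _

/-- **WT.** -/
theorem wt : WT := by
  intro k s hk hs
  have hL : 1 ≤ max 1 (64 * s / k) := le_max_left _ _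
  refine ⟨aw s (max 1 (64 * s / k)), _, _, _, wt_aw hs hL ?_, aw_sm _ _,
    fun y => ⟨aw_low (by linarith) hL y, aw_up (by linarith) hL y⟩⟩
  rw [div_le_iff₀ (by linarith)]
  have h := (div_le_iff₀ hk).1 (le_max_right 1 (64 * s / k))
  linarith

end Vale.Agent.P354AY
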